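import Vale.Agent.P045.H414.Inst

/-!
# P045: the construction over an arbitrary finite field, with the number of points
-/

namespace Vale.Agent.N045

open Finset P045.LS

/-- dual form of a counterexample with at most `m` points -/
def SD (r m : ℕ) : Prop :=
  ∃ (P W Z : Type) (_ : Fintype P) (_ : Fintype W) (_ : Fintype Z)
    (_ : DecidableEq P) (_ : DecidableEq W) (_ : DecidableEq Z) (f : P → W → Z),
    Nonempty W ∧ Fintype.card P = r ∧ Fintype.card W ≤ m ∧
    (∀ w w' : W, ∃ i, f i w = f i w') ∧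
    ∀ C : Finset (P × Z), (∀ w, ∃ i, (i, f i w) ∈ C) → r ≤ C.card

/-- weighted dual form with at most `N ^ 2` points -/
def SO (N T : ℕ) : Prop :=
  ∃ (P Q W Z : Type) (_ : Fintype P) (_ : Fintype Q) (_ : Fintype W) (_ : Fintype Z)
    (_ : DecidableEq P) (_ : DecidableEq Q) (_ : DecidableEq W) (_ : DecidableEq Z)
    (f : P ⊕ Q → W → Z),
    Nonempty W ∧ Fintype.card P = N ∧ Fintype.card Q = T ∧ Fintype.card W ≤ N ^ 2 ∧
    (∀ w w' : W, ∃ i, f i w = f i w') ∧
    ∀ (a : P → ℕ) (u : ℕ), (∀ d, a d ≤ u) →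
      (∀ d, ∑ e, a e + T * u ≤ (N + T + 1) * a d) →
      ∀ C : Finset ((P ⊕ Q) × Z), (∀ w, ∃ i, (i, f i w) ∈ C) →
        ∑ e, a e + T * u ≤ ∑ z ∈ C, Sum.elim a (fun _ => u) z.1

theorem SD.mono {r m m' : ℕ} (h : SD r m) (hm : m ≤ m') : SD r m' := by
  obtain ⟨P, W, Z, i1, i2, i3, i4, i5, i6, f, h1, h2, h3, h4, h5⟩ := h
  exact ⟨P, W, Z, i1, i2, i3, i4, i5, i6, f, h1, h2, h3.trans hm, h4, h5⟩

section Rig

variable {k F : Type} [Field k] [Fintype k] [DecidableEq k] [Field F] [Fintype F] [DecidableEq F]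
  [Algebra k F]

theorem rig_arith {q n t E K : ℕ} (hq : 59 ≤ q) (hE : q * E ≤ 2 * n) (ht : 3481 * (t + 1) ≤ 5 * n)
    (hK : 100000 * K ≤ 18412 * n) :
    2 * ((q - 1) * (q * n)) + (q - 1) * (2 * q - 1) * (2 * E + 2 * (t + 1) + 5 * K) ≤
      2 * ((q - 1) * (2 * q - 1)) * n := by
  have hE' : 59 * E ≤ 2 * n := (Nat.mul_le_mul_right _ hq).trans hE
  have hS : 117 * (2 * E + 2 * (t + 1) + 5 * K) ≤ 116 * n := by omega
  obtain ⟨p, rfl⟩ : ∃ p, q = p + 59 := ⟨q - 59, by omega⟩
  rw [show p + 59 - 1 = p + 58 by omega, show 2 * (p + 59) - 1 = 2 * p + 117 by omega]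
  generalize 2 * E + 2 * (t + 1) + 5 * K = S at hS
  have h1 : S ≤ n := by omega
  have h2 : (2 * p + 117) * S ≤ (2 * p + 116) * n := by nlinarith
  have h3 : (p + 58) * ((2 * p + 117) * S) ≤ (p + 58) * ((2 * p + 116) * n) :=
    Nat.mul_le_mul_left _ h2
  nlinarith

/-- rigidity of `Ω` for every base field with at least 59 elements -/
theorem rigid_gen (hq : 59 ≤ Fintype.card k)
    (hco : Nat.Coprime (Module.finrank k F) (Fintype.card k - 1)) (t : ℕ)
    (ht : 3481 * (t + 1) ≤ 5 * Fintype.card F)
    (L : Finset (Line F)) (hL : L.card ≤ Fintype.card F + t)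
    (hcov : ∀ p ∈ Om k F, ∃ x ∈ L, On p x) : ∀ p, ∃ x ∈ L, On p x := by
  set n := Fintype.card F with hndef
  set q := Fintype.card k with hqdef
  have hq0 : 0 < q := by omega
  have hE : q * (2 * n / q) ≤ 2 * n := Nat.mul_div_le _ _
  have hE' : 59 * (2 * n / q) ≤ 2 * n := (Nat.mul_le_mul_right _ hq).trans hE
  have hK : 100000 * (18412 * n / 100000) ≤ 18412 * n := Nat.mul_div_le _ _
  refine rigid (Om k F) t (2 * n / q) ((q - 1) * (q * n)) ((q - 1) * (2 * q - 1))
    (18412 * n / 100000) ?_ ?_ ?_ (wt k) ?_ ?_ ?_ ?_ ?_ L hL hcov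
  · omega
  · intro x
    have h := card_line_Om_compl (k := k) hco x
    rw [← hqdef, ← hndef] at h
    rw [Nat.le_div_iff_mul_le hq0, mul_comm]
    exact h
  · have h := card_Om_compl (k := k) (F := F)
    rw [← hqdef, ← hndef] at h
    have h7 : 18412 * n < 100000 * (18412 * n / 100000 + 1) := by omega
    generalize 18412 * n / 100000 = a at h7
    have h3 : 2 * ((a + 2).choose 2) = (a + 2) * (a + 1) := by
      rw [Nat.choose_two_right]
      have : 2 ∣ (a + 2) * (a + 2 - 1) := by
        have := Nat.even_mul_succ_self (a + 1)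
        have h2 : (a + 2) * (a + 2 - 1) = (a + 1) * (a + 1 + 1) := by
          have : a + 2 - 1 = a + 1 := by omega
          rw [this]; ring
        rw [h2]; exact this.two_dvd
      rw [Nat.mul_div_cancel' this]
      rfl
    have h59 : 59 * ((Om k F)ᶜ).card ≤ n ^ 2 := (Nat.mul_le_mul_right _ hq).trans h
    have h4 : (18412 * n) ^ 2 < (100000 * (a + 1)) ^ 2 := Nat.pow_lt_pow_left h7 (by norm_num)
    generalize ((Om k F)ᶜ).card = U at h59
    generalize (a + 2).choose 2 = c at h3
    nlinarith
  · exact sum_wt (k := k) (F := F)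
  · exact Nat.mul_pos (by omega) (by omega)
  · intro w hw
    exact wt_through (k := k) w hw
  · omega
  · exact rig_arith hq hE ht hK

/-- the number of points of `Ω` on a line -/
theorem card_Om_line (hco : Nat.Coprime (Module.finrank k F) (Fintype.card k - 1)) (x : Line F) :
    (Fintype.card k - 2) * Fintype.card F ≤
      Fintype.card k * ((Om k F).filter fun p => On p x).card := by
  have h1 := card_line_Om_compl (k := k) hco x
  have h2 : (Finset.univ.filter fun p : Pt F => On p x).card = Fintype.card F :=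
    Bruen.card_line x.1 x.2
  have h3 : (Finset.univ.filter fun p : Pt F => On p x).card =
      ((Om k F).filter fun p => On p x).card +
        (Finset.univ.filter fun p => On p x ∧ p ∉ Om k F).card := by
    rw [← Finset.card_union_of_disjoint]
    · congr 1
      ext p
      simp only [Finset.mem_filter, Finset.mem_univ, true_and, Finset.mem_union]
      tauto
    · rw [Finset.disjoint_left]
      intro p hp hp'
      simp only [Finset.mem_filter, Finset.mem_univ, true_and] at hp hp'
      exact hp'.2 hp.1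
  have hq : 2 ≤ Fintype.card k := Fintype.one_lt_card
  obtain ⟨p, hp⟩ : ∃ p, Fintype.card k = p + 2 := ⟨Fintype.card k - 2, by omega⟩
  rw [hp] at h1 ⊢
  rw [Nat.add_sub_cancel]
  rw [h2] at h3
  generalize ((Om k F).filter fun p => On p x).card = A at h3 ⊢
  generalize (Finset.univ.filter fun p => On p x ∧ p ∉ Om k F).card = B at h3 h1
  rw [h3] at h1 ⊢
  nlinarith

/-- the classes of split lines -/
def CL (k F : Type) [Field k] [Fintype k] [DecidableEq k] [Field F] [Fintype F] [DecidableEq F]
    [Algebra k F] : {l : k // l ≠ 0} ⊕ Bool → Finset (Line F)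
  | Sum.inl l => cls F l.1
  | Sum.inr false => Finset.univ.filter fun x => x.1 = none
  | Sum.inr true => Finset.univ.filter fun x => x.1 = some 0

theorem CL_disj (hco : Nat.Coprime (Module.finrank k F) (Fintype.card k - 1))
    (c c' : {l : k // l ≠ 0} ⊕ Bool) (h : c ≠ c') : Disjoint (CL k F c) (CL k F c') := by
  rcases c with l | b <;> rcases c' with l' | b'
  · apply cls_disj hco _ _ l.2 l'.2
    intro hl
    exact h (by rw [Subtype.ext hl])
  · rw [Finset.disjoint_left]
    intro x hx hx'
    obtain ⟨m, hm, hxm⟩ := cls_slope _ l.2 x hx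
    cases b' <;> simp only [CL, Finset.mem_filter, Finset.mem_univ, true_and] at hx'
    · rw [hx'] at hxm; exact absurd hxm (by simp)
    · rw [hx'] at hxm; exact hm (Option.some.inj hxm).symm
  · rw [Finset.disjoint_left]
    intro x hx' hx
    obtain ⟨m, hm, hxm⟩ := cls_slope _ l'.2 x hx
    cases b <;> simp only [CL, Finset.mem_filter, Finset.mem_univ, true_and] at hx'
    · rw [hx'] at hxm; exact absurd hxm (by simp)
    · rw [hx'] at hxm; exact hm (Option.some.inj hxm).symm
  · cases b <;> cases b'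
    · exact absurd rfl h
    · rw [Finset.disjoint_left]
      intro x hx hx'
      simp only [CL, Finset.mem_filter, Finset.mem_univ, true_and] at hx hx'
      rw [hx] at hx'; exact absurd hx' (by simp)
    · rw [Finset.disjoint_left]
      intro x hx hx'
      simp only [CL, Finset.mem_filter, Finset.mem_univ, true_and] at hx hx'
      rw [hx] at hx'; exact absurd hx' (by simp)
    · exact absurd rfl h

theorem CL_cov (c : {l : k // l ≠ 0} ⊕ Bool) (p : Pt F) : ∃ x ∈ CL k F c, On p x := by
  rcases c with l | b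
  · exact cls_cov _ l.2 p
  · cases b
    · exact ⟨(none, p 0), by simp [CL], rfl⟩
    · exact ⟨(some 0, icpt (some 0) p), by simp [CL], rfl⟩

theorem CL_uniq (p : Pt F) (hp : p ∈ Om k F) (c : {l : k // l ≠ 0} ⊕ Bool)
    (x : Line F) (hx : x ∈ CL k F c) (y : Line F) (hy : y ∈ CL k F c) (h1 : On p x)
    (h2 : On p y) : x = y := by
  rcases c with l | b
  · simp only [Om, Finset.mem_filter, Finset.mem_univ, true_and] at hp
    exact hp _ l.2 x hx y hy h1 h2
  · have hxy : x.1 = y.1 := by
      cases b <;> simp only [CL, Finset.mem_filter, Finset.mem_univ, true_and] at hx hy <;>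
        rw [hx, hy]
    refine Prod.ext hxy ?_
    unfold On at h1 h2
    rw [← h1, ← h2, hxy]

/-- every direction has many lines in one class -/
theorem CL_dir (hco : Nat.Coprime (Module.finrank k F) (Fintype.card k - 1)) (d : Option F) :
    (∃ l, Fintype.card k ≤ ((CL k F (Sum.inl l)).filter fun x => x.1 = d).card) ∨
      ∃ b, Fintype.card F ≤ ((CL k F (Sum.inr b)).filter fun x => x.1 = d).card := by
  rcases d with _ | m
  · refine Or.inr ⟨false, ?_⟩
    have : ((CL k F (Sum.inr false)).filter fun x => x.1 = none) =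
        (Finset.univ.filter fun x : Line F => x.1 = none) := by
      ext x; simp [CL]
    rw [this, card_dir]
  · by_cases hm : m = 0
    · subst hm
      refine Or.inr ⟨true, ?_⟩
      have : ((CL k F (Sum.inr true)).filter fun x => x.1 = some 0) =
          (Finset.univ.filter fun x : Line F => x.1 = some 0) := by
        ext x; simp [CL]
      rw [this, card_dir]
    · obtain ⟨l, hl, hcard⟩ := cls_dir (k := k) hco m hm
      exact Or.inl ⟨⟨l, hl⟩, hcard⟩

theorem card_ne_zero : Fintype.card {l : k // l ≠ 0} = Fintype.card k - 1 := by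
  rw [Fintype.card_subtype_compl, Fintype.card_subtype_eq]

end Rig

section Typ

variable {F : Type} [Fintype F] [DecidableEq F] {Γ : Type} [Fintype Γ]

omit [Fintype F] [DecidableEq F] [Fintype Γ] in
/-- the class of a line -/
theorem exists_typ (B : Γ → Finset (Line F)) (hdisj : ∀ c c', c ≠ c' → Disjoint (B c) (B c')) :
    ∃ typ : Line F → Option Γ, ∀ x c, typ x = some c ↔ x ∈ B c := by
  classical
  refine ⟨fun x => if h : ∃ c : Γ, x ∈ B c then some h.choose else none, fun x c => ?_⟩
  constructor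
  · intro h
    by_cases h' : ∃ c : Γ, x ∈ B c
    · simp only [dif_pos h'] at h
      have h2 := Option.some.inj h
      have h3 := h'.choose_spec
      rw [h2] at h3
      exact h3
    · simp only [dif_neg h'] at h
      exact absurd h (by simp)
  · intro h
    have h' : ∃ c : Γ, x ∈ B c := ⟨c, h⟩
    simp only [dif_pos h']
    congr 1
    by_contra hne
    exact Finset.disjoint_left.1 (hdisj h'.choose c hne) h'.choose_spec h

omit [Fintype Γ] in
/-- the lines of one class in one direction -/
theorem dir_sum (B : Γ → Finset (Line F)) (typ : Line F → Option Γ)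
    (htyp : ∀ x c, typ x = some c ↔ x ∈ B c) (g : Option Γ → ℕ) (c : Γ) (d : Option F) :
    g (some c) * ((B c).filter fun x => x.1 = d).card ≤ ∑ c' : F, g (typ (d, c')) := by
  classical
  have h1 : ((B c).filter fun x => x.1 = d).card =
      (univ.filter fun c' : F => (d, c') ∈ B c).card := by
    refine (Finset.card_bij (fun c' _ => (d, c')) ?_ ?_ ?_).symm
    · intro c' hc
      exact Finset.mem_filter.2 ⟨(Finset.mem_filter.1 hc).2, rfl⟩
    · intro c' _ c'' _ h
      exact (Prod.mk.inj h).2
    · intro x hx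
      obtain ⟨hx1, hx2⟩ := Finset.mem_filter.1 hx
      refine ⟨x.2, Finset.mem_filter.2 ⟨Finset.mem_univ _, ?_⟩, ?_⟩
      · rw [← hx2]; exact hx1
      · rw [← hx2]
  rw [h1, mul_comm, ← smul_eq_mul, ← Finset.sum_const]
  refine le_trans (le_of_eq ?_) (Finset.sum_le_sum_of_subset
    (f := fun c' : F => g (typ (d, c'))) (Finset.filter_subset (fun c' : F => (d, c') ∈ B c) univ))
  refine Finset.sum_congr rfl fun c' hc' => ?_
  rw [(htyp _ c).2 (Finset.mem_filter.1 hc').2]

end Typ

theorem card_sub_pt {F : Type} [Fintype F] (Ω : Finset (Pt F)) :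
    Fintype.card {p // p ∈ Ω} ≤ Fintype.card F ^ 2 := by
  rw [Fintype.card_coe]
  refine (Finset.card_le_univ _).trans (le_of_eq ?_)
  rw [Fintype.card_fun, Fintype.card_fin]

/-- the gadget theorem for pairs of classes, with the number of points -/
theorem sd_pairs {F : Type} [Field F] [Fintype F] [DecidableEq F] {I : Type} [Fintype I]
    [DecidableEq I] (s : I → ℕ) (hs : ∀ i, 2 ≤ s i)
    (B : I × Bool → Finset (Line F)) (Ω : Finset (Pt F))
    (hdisj : ∀ c c', c ≠ c' → Disjoint (B c) (B c'))
    (hcov : ∀ c p, ∃ x ∈ B c, On p x)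
    (huniq : ∀ p ∈ Ω, ∀ c, ∀ x ∈ B c, ∀ y ∈ B c, On p x → On p y → x = y)
    (hdir : ∀ d : Option F, ∃ c : I × Bool, (∑ i, 2 * s i) + 1 ≤
      s c.1 * ((B c).filter fun x => x.1 = d).card)
    (hbig : ∀ i (x : Line F), 2 * ((∑ j, 2 * s j) + 1) * (2 * s i).choose (s i) ≤
      (Ω.filter fun p => On p x).card)
    (ht2 : (∑ i, 2 * s i) ^ 2 < Fintype.card F)
    (hrig : ∀ L : Finset (Line F), L.card ≤ Fintype.card F + ∑ i, 2 * s i →
      (∀ p ∈ Ω, ∃ x ∈ L, On p x) → ∀ p, ∃ x ∈ L, On p x) :
    SD (Fintype.card F + 1 + ∑ i, 2 * s i) (Fintype.card F ^ 2) := by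
  classical
  obtain ⟨typ, htyp⟩ := exists_typ B hdisj
  have hlab := fun i => pair_labels (s i) (fun b => B (i, b)) Ω
    (fun p hp b x hx y hy h1 h2 => huniq p hp (i, b) x hx y hy h1 h2) (∑ j, 2 * s j)
    (fun _ x _ => hbig i x)
  choose S hS1 hS2 using hlab
  choose xl hxl1 hxl2 using hcov
  let D : Split F I s :=
    { Om := Ω
      typ := typ
      xl := fun i b => xl (i, b)
      S := S
      hs := hs
      xl_on := fun i b => hxl2 (i, b)
      xl_typ := fun i b p => (htyp _ (i, b)).2 (hxl1 (i, b) p)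
      uniq := fun i b p hp x hpx hx => huniq p hp (i, b) x ((htyp x (i, b)).1 hx) _
        (hxl1 (i, b) p) hpx (hxl2 (i, b) p)
      cardS := fun i p _ => hS1 i p
      rich := fun x i b hx L hL => hS2 i b x ((htyp x (i, b)).1 hx) L hL
      dir := by
        intro d
        obtain ⟨c, hc⟩ := hdir d
        exact lt_of_lt_of_le (Nat.lt_of_succ_le hc) (dir_sum B typ htyp (ext s) c d) }
  refine ⟨Split.Part F s, {p // p ∈ D.Om}, Split.Blk F s, inferInstance, inferInstance,
    inferInstance, inferInstance, inferInstance, inferInstance, D.fn, ?_, ?_, card_sub_pt _,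
    D.intersecting, fun C hC => D.cover_le ht2 hrig C hC⟩
  · obtain ⟨c, -⟩ := hdir none
    have h1 := hbig c.1 (none, 0)
    have h2 : 0 < (2 * s c.1).choose (s c.1) := Nat.choose_pos (by omega)
    obtain ⟨p, hp⟩ := Finset.card_pos.1 (lt_of_lt_of_le (by positivity) h1)
    exact ⟨⟨p, (Finset.mem_filter.1 hp).1⟩⟩
  · rw [Fintype.card_sum, Fintype.card_option, Fintype.card_sigma]
    simp

/-- **The family `q ^ h + 5 q`.** -/
theorem sd_field {k F : Type} [Field k] [Fintype k] [DecidableEq k] [Field F] [Fintype F]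
    [DecidableEq F] [Algebra k F] (hq : 59 ≤ Fintype.card k) (hodd : Odd (Fintype.card k))
    (hco : Nat.Coprime (Module.finrank k F) (Fintype.card k - 1))
    (hn : Fintype.card k ^ 3 ≤ Fintype.card F) :
    SD (Fintype.card F + 5 * Fintype.card k) (Fintype.card F ^ 2) := by
  classical
  obtain ⟨j, hj⟩ := hodd
  obtain ⟨e⟩ : Nonempty (Fin j × Bool ≃ {l : k // l ≠ 0}) := by
    refine Fintype.card_eq.1 ?_
    rw [card_ne_zero, Fintype.card_prod, Fintype.card_fin, Fintype.card_bool]
    omega
  let s : Option (Fin j) → ℕ := fun i => i.elim 2 fun _ => 5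
  let ι : Option (Fin j) × Bool → {l : k // l ≠ 0} ⊕ Bool := fun c =>
    c.1.elim (Sum.inr c.2) fun i => Sum.inl (e (i, c.2))
  have hι : Function.Injective ι := by
    rintro ⟨_ | i, b⟩ ⟨_ | i', b'⟩ h
    · have : b = b' := Sum.inr.inj h
      rw [this]
    · exact absurd h (by simp [ι])
    · exact absurd h (by simp [ι])
    · have h2 := e.injective (Sum.inl.inj h)
      obtain ⟨rfl, rfl⟩ := Prod.mk.inj h2
      rfl
  have hsum : ∑ i, 2 * s i = 5 * Fintype.card k - 1 := by
    rw [Fintype.sum_option]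
    simp only [s, Option.elim, Finset.sum_const, Finset.card_univ, Fintype.card_fin, smul_eq_mul]
    omega
  set q := Fintype.card k with hqdef
  set n := Fintype.card F with hndef
  have hq3 : 3481 * q ≤ n := by
    refine le_trans ?_ hn
    have : 59 * 59 ≤ q * q := Nat.mul_le_mul hq hq
    nlinarith
  have key := sd_pairs s (by rintro (_ | i) <;> simp [s]) (fun c => CL k F (ι c)) (Om k F)
    (fun c c' h => CL_disj hco _ _ (fun h' => h (hι h'))) (fun c p => CL_cov _ p)
    (fun p hp c x hx y hy => CL_uniq p hp _ x hx y hy) (by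
      intro d
      rw [hsum]
      rcases CL_dir hco d with ⟨l, hl⟩ | ⟨b, hb⟩
      · obtain ⟨⟨i, b⟩, rfl⟩ := e.surjective l
        refine ⟨(some i, b), ?_⟩
        show _ ≤ 5 * ((CL k F (Sum.inl (e (i, b)))).filter fun x => x.1 = d).card
        omega
      · refine ⟨(none, b), ?_⟩
        show _ ≤ 2 * ((CL k F (Sum.inr b)).filter fun x => x.1 = d).card
        omega) (by
      intro i x
      rw [hsum]
      have h1 := card_Om_line (k := k) hco x
      rw [← hqdef, ← hndef] at h1
      have h2 : (2 * s i).choose (s i) ≤ 252 := by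
        rcases i with _ | i
        · show (2 * 2).choose 2 ≤ 252
          decide
        · show (2 * 5).choose 5 ≤ 252
          decide
      refine (Nat.mul_le_mul_left _ h2).trans ?_
      rw [show 5 * q - 1 + 1 = 5 * q by omega]
      refine Nat.le_of_mul_le_mul_left (le_trans ?_ h1) (show 0 < q by omega)
      have h3 : 57 * n ≤ (q - 2) * n := Nat.mul_le_mul_right _ (by omega)
      obtain ⟨p, hp⟩ : ∃ p, q = p + 2 := ⟨q - 2, by omega⟩
      have h4 : (q - 2) * q ^ 3 ≤ (q - 2) * n := Nat.mul_le_mul_left _ hn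
      refine le_trans ?_ h4
      have h5 : 57 * 59 ≤ (q - 2) * q := Nat.mul_le_mul (by omega) hq
      calc q * (2 * (5 * q) * 252) = 2520 * (q * q) := by ring
        _ ≤ ((q - 2) * q) * (q * q) := Nat.mul_le_mul_right _ (by omega)
        _ = (q - 2) * q ^ 3 := by ring) (by
      rw [hsum]
      refine lt_of_lt_of_le ?_ hn
      calc (5 * q - 1) ^ 2 < (5 * q) ^ 2 := Nat.pow_lt_pow_left (by omega) (by norm_num)
        _ = 25 * (q * q) := by ring
        _ ≤ q * (q * q) := Nat.mul_le_mul_right _ (by omega)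
        _ = q ^ 3 := by ring) (by
      intro L hL hc
      rw [hsum] at hL
      exact rigid_gen hq hco _ (by omega) L hL hc)
  rw [hsum, show n + 1 + (5 * q - 1) = n + 5 * q by omega] at key
  exact key

/-- the family, for every odd prime power -/
theorem sd_family {q h : ℕ} (hpp : IsPrimePow q) (hodd : Odd q) (hq : 59 ≤ q) (hh : 3 ≤ h)
    (hco : Nat.Coprime h (q - 1)) : SD (q ^ h + 5 * q) (q ^ (2 * h)) := by
  classical
  obtain ⟨p, e, hp, he, rfl⟩ := (isPrimePow_nat_iff q).1 hpp
  have : Fact p.Prime := ⟨hp⟩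
  have : NeZero h := ⟨by omega⟩
  have : Fintype (GaloisField p e) := Fintype.ofFinite _
  have hk : Fintype.card (GaloisField p e) = p ^ e := by
    rw [← Nat.card_eq_fintype_card]
    exact GaloisField.card p e (by omega)
  have : Fintype (FiniteField.Extension (GaloisField p e) p h) := Fintype.ofFinite _
  have hF : Fintype.card (FiniteField.Extension (GaloisField p e) p h) = (p ^ e) ^ h := by
    rw [← Nat.card_eq_fintype_card, FiniteField.natCard_extension, Nat.card_eq_fintype_card, hk]
  have key := sd_field (k := GaloisField p e) (F := FiniteField.Extension (GaloisField p e) p h)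
    (by rw [hk]; exact hq) (by rw [hk]; exact hodd)
    (by rw [hk, FiniteField.finrank_extension]; exact hco)
    (by rw [hk, hF]; exact Nat.pow_le_pow_right (by omega) hh)
  rw [hk, hF, ← pow_mul (p ^ e) h 2, mul_comm h 2] at key
  exact key

end Vale.Agent.N045
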