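import Vale.Agent.N045.Out

/-!
# P045: composition with the number of points, and the ladder of intervals
-/

namespace Vale.Agent.N045

open Finset P045.LS

/-- a counterexample in dual form with few points -/
def Good (r : ℕ) : Prop := ∃ e, SD r (2 ^ e) ∧ 10 ^ 10 * (e + 1) ≤ r

theorem sq_le_two_pow (N : ℕ) (hN : 7 ≤ N) : N ^ 2 ≤ 2 ^ (N - 1) := by
  induction N, hN using Nat.le_induction with
  | base => norm_num
  | succ n hn ih =>
    obtain ⟨m, rfl⟩ : ∃ m, n = m + 1 := ⟨n - 1, by omega⟩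
    rw [Nat.add_sub_cancel] at ih ⊢
    rw [pow_succ 2 m]
    nlinarith

/-- **Composition**: an outer hypergraph and inner counterexamples. -/
theorem comp {N T : ℕ} (hO : SO N T) (hN : 7 ≤ N) (a : Fin N → ℕ) (u : ℕ) (hau : ∀ d, a d ≤ u)
    (hmin : ∀ d, ∑ e, a e + T * u ≤ (N + T + 1) * a d)
    (ha : ∀ d, Good (a d)) (hu : Good u) : Good (∑ d, a d + T * u) := by
  classical
  obtain ⟨P, Q, W, Z, _, _, _, _, _, _, _, _, f, hW, hP, hQ, hWc, hf, hw⟩ := hO
  let e : P ≃ Fin N := Fintype.equivFinOfCardEq hP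
  let b : P ⊕ Q → ℕ := Sum.elim (fun p => a (e p)) (fun _ => u)
  have hin : ∀ i : P ⊕ Q, Good (b i) := by
    rintro (i | i)
    · exact ha (e i)
    · exact hu
  have hsum : ∑ p, a (e p) = ∑ d, a d := Equiv.sum_comp e a
  have hb : ∑ i, b i = ∑ d, a d + T * u := by
    rw [Fintype.sum_sum_type]
    simp only [b, Sum.elim_inl, Sum.elim_inr, Finset.sum_const, Finset.card_univ, hQ,
      smul_eq_mul]
    rw [hsum]
  choose ex hin hex using hin
  choose P' W' Z' iP iW iZ dP dW dZ g hne hcard hsz hint hcov using hin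
  refine ⟨(N + T - 1) + ∑ i, ex i, ⟨Σ i, P' i, W × (∀ i, W' i), Z × (Σ i, Z' i), inferInstance,
    inferInstance, inferInstance, inferInstance, inferInstance, inferInstance,
    fun i w => (f i.1 w.1, ⟨i.1, g i.1 i.2 (w.2 i.1)⟩), ?_, ?_, ?_, ?_, ?_⟩, ?_⟩
  · obtain ⟨w⟩ := hW
    exact ⟨(w, fun i => (hne i).some)⟩
  · rw [Fintype.card_sigma, Finset.sum_congr rfl fun i _ => hcard i, hb]
  · rw [Fintype.card_prod, Fintype.card_pi, pow_add, ← Finset.prod_pow_eq_pow_sum]
    refine Nat.mul_le_mul ?_ (Finset.prod_le_prod' fun i _ => hsz i)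
    exact hWc.trans ((sq_le_two_pow N hN).trans (Nat.pow_le_pow_right (by norm_num) (by omega)))
  · rintro ⟨w, y⟩ ⟨w', y'⟩
    obtain ⟨i, hi⟩ := hf w w'
    obtain ⟨j, hj⟩ := hint i (y i) (y' i)
    refine ⟨⟨i, j⟩, ?_⟩
    simp only
    rw [hi, hj]
  · intro C hC
    let C2 : ∀ (i : P ⊕ Q) (_ : Z), Finset (P' i × Z' i) := fun i z =>
      univ.filter fun q => ((⟨i, q.1⟩ : Σ i, P' i), (z, (⟨i, q.2⟩ : Σ i, Z' i))) ∈ C
    let C1 : Finset ((P ⊕ Q) × Z) :=
      univ.filter fun iz => ∀ y : W' iz.1, ∃ j, (j, g iz.1 j y) ∈ C2 iz.1 iz.2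
    have hC1 : ∀ w, ∃ i, (i, f i w) ∈ C1 := by
      intro w
      by_contra hcon
      push Not at hcon
      have h1 : ∀ i, ∃ y : W' i, ∀ j, (j, g i j y) ∉ C2 i (f i w) := by
        intro i
        have := hcon i
        by_contra h2
        push Not at h2
        exact this (Finset.mem_filter.2 ⟨Finset.mem_univ _, h2⟩)
      choose y hy using h1
      obtain ⟨⟨i, j⟩, hij⟩ := hC (w, y)
      exact hy i j (Finset.mem_filter.2 ⟨Finset.mem_univ _, hij⟩)
    have h1 := hw (fun p => a (e p)) u (fun p => hau _) (by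
      intro p
      rw [hsum]
      exact hmin _) C1 hC1
    rw [hsum] at h1
    refine h1.trans ?_
    have h2 : ∀ z ∈ C1, Sum.elim (fun p => a (e p)) (fun _ => u) z.1 ≤ (C2 z.1 z.2).card := by
      intro z hz
      exact hcov z.1 (C2 z.1 z.2) (Finset.mem_filter.1 hz).2
    refine (Finset.sum_le_sum h2).trans ?_
    rw [← Finset.card_sigma]
    refine Finset.card_le_card_of_injOn
      (fun q : (Σ z : (P ⊕ Q) × Z, P' z.1 × Z' z.1) =>
        ((⟨q.1.1, q.2.1⟩ : Σ i, P' i), (q.1.2, (⟨q.1.1, q.2.2⟩ : Σ i, Z' i)))) ?_ ?_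
    · rintro ⟨z, q⟩ hq
      have hq2 := (Finset.mem_sigma.1 hq).2
      exact (Finset.mem_filter.1 hq2).2
    · rintro ⟨⟨i, z⟩, ⟨j, ζ⟩⟩ _ ⟨⟨i', z'⟩, ⟨j', ζ'⟩⟩ _ h
      simp only [Prod.mk.injEq, Sigma.mk.injEq] at h
      obtain ⟨⟨rfl, h2⟩, rfl, -, h4⟩ := h
      rw [eq_of_heq h2, eq_of_heq h4]
  · rw [← hb]
    refine le_trans (le_of_eq ?_) (Finset.sum_le_sum fun i _ => hex i)
    rw [← Finset.mul_sum, Finset.sum_add_distrib, Finset.sum_const, Finset.card_univ,
      Fintype.card_sum, hP, hQ, smul_eq_mul, mul_one]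
    congr 1
    omega

/-- an outer hypergraph is itself a counterexample -/
theorem sd_of_so {N T : ℕ} (hO : SO N T) : SD (N + T) (N ^ 2) := by
  obtain ⟨P, Q, W, Z, _, _, _, _, _, _, _, _, f, hW, hP, hQ, hWc, hf, hw⟩ := hO
  refine ⟨P ⊕ Q, W, Z, inferInstance, inferInstance, inferInstance, inferInstance, inferInstance,
    inferInstance, f, hW, by rw [Fintype.card_sum, hP, hQ], hWc, hf, fun C hC => ?_⟩
  have h := hw (fun _ => 1) 1 (fun _ => le_rfl) (by
    intro _
    rw [Finset.sum_const, Finset.card_univ, hP]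
    simp only [smul_eq_mul, mul_one]
    omega) C hC
  rw [Finset.sum_const, Finset.card_univ, hP] at h
  simp only [smul_eq_mul, mul_one] at h
  refine h.trans ?_
  rw [Finset.card_eq_sum_ones]
  refine Finset.sum_le_sum fun z _ => ?_
  rcases z with ⟨i | i, b⟩ <;> exact le_rfl

/-- all integers of `[a, b]` are degrees of counterexamples with few points -/
def Full (a b : ℕ) : Prop := ∀ r, a ≤ r → r ≤ b → Good r

theorem sum_min (m N : ℕ) : ∑ d ∈ Finset.range N, min 2 (m - 2 * d) = min m (2 * N) := by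
  induction N with
  | zero => simp
  | succ N ih => rw [Finset.sum_range_succ, ih]; omega

/-- composition with sizes `y`, `y + 1`, `y + 2` -/
theorem comp_three {N T y m : ℕ} (hO : SO N T) (hN : 7 ≤ N) (hm : m ≤ 2 * N)
    (hy : 2 * (N + T) ≤ y) (h0 : Good y) (h1 : Good (y + 1)) (h2 : Good (y + 2)) :
    Good ((N + T) * y + m + 2 * T) := by
  have hs : ∑ d : Fin N, (y + min 2 (m - 2 * (d : ℕ))) = N * y + m := by
    rw [Fin.sum_univ_eq_sum_range (fun d => y + min 2 (m - 2 * d)) N, Finset.sum_add_distrib,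
      sum_min]
    simp only [Finset.sum_const, Finset.card_range, smul_eq_mul]
    omega
  have h := comp hO hN (fun d : Fin N => y + min 2 (m - 2 * (d : ℕ))) (y + 2)
    (fun d => by omega) (by
      intro d
      rw [hs]
      have h3 : (N + T + 1) * y ≤ (N + T + 1) * (y + min 2 (m - 2 * (d : ℕ))) :=
        Nat.mul_le_mul_left _ (by omega)
      refine le_trans ?_ h3
      nlinarith) (by
      intro d
      have h3 : min 2 (m - 2 * (d : ℕ)) = 0 ∨ min 2 (m - 2 * (d : ℕ)) = 1 ∨
          min 2 (m - 2 * (d : ℕ)) = 2 := by omega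
      rcases h3 with h3 | h3 | h3
      · simp only [h3]; exact h0
      · simp only [h3]; exact h1
      · simp only [h3]; exact h2) h2
  rw [hs] at h
  have h4 : (N + T) * y + m + 2 * T = N * y + m + T * (y + 2) := by ring
  rw [h4]
  exact h

/-- composition of an interval with one outer hypergraph -/
theorem full_comp {N T a b : ℕ} (hO : SO N T) (hTN : T ≤ N) (hN : 7 ≤ N) (hab : a + 2 ≤ b)
    (ha : 2 * (N + T) ≤ a) (h : Full a b) : Full ((N + T) * a + 2 * T) ((N + T) * b) := by
  intro r hr1 hr2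
  have hpos : 0 < N + T := by omega
  obtain ⟨y, m, hya, hyb, hm, hr⟩ : ∃ y m, a ≤ y ∧ y + 2 ≤ b ∧ m ≤ 2 * N ∧
      r = (N + T) * y + m + 2 * T := by
    by_cases hq : (r - 2 * T) / (N + T) + 2 ≤ b
    · refine ⟨(r - 2 * T) / (N + T), (r - 2 * T) % (N + T), ?_, hq, ?_, ?_⟩
      · rw [Nat.le_div_iff_mul_le hpos]
        have : a * (N + T) = (N + T) * a := Nat.mul_comm _ _
        omega
      · have := Nat.mod_lt (r - 2 * T) hpos
        omega
      · have := Nat.div_add_mod (r - 2 * T) (N + T)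
        omega
    · refine ⟨b - 2, r - 2 * T - (N + T) * (b - 2), by omega, by omega, ?_, ?_⟩
      · obtain ⟨c, rfl⟩ : ∃ c, b = c + 2 := ⟨b - 2, by omega⟩
        rw [Nat.add_sub_cancel]
        have : (N + T) * (c + 2) = (N + T) * c + 2 * (N + T) := by ring
        omega
      · have h1 : b - 2 ≤ (r - 2 * T) / (N + T) := by omega
        rw [Nat.le_div_iff_mul_le hpos] at h1
        have : (b - 2) * (N + T) = (N + T) * (b - 2) := Nat.mul_comm _ _
        omega
  rw [hr]
  exact comp_three hO hN hm (ha.trans hya) (h y hya (by omega)) (h _ (by omega) (by omega))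
    (h _ (by omega) (by omega))

theorem Full.union {a b c d : ℕ} (h1 : Full a b) (h2 : Full c d) (h : c ≤ b + 1) : Full a d :=
  fun r hr1 hr2 => if hr : r ≤ b then h1 r hr1 hr else h2 r (by omega) hr2

theorem Full.mono {a b c d : ℕ} (h1 : Full a b) (h2 : a ≤ c) (h3 : d ≤ b) : Full c d :=
  fun r hr1 hr2 => h1 r (h2.trans hr1) (hr2.trans h3)

/-- a long interval is followed by all integers -/
theorem all_of_full {N T x y : ℕ} (hO : SO N T) (hTN : T ≤ N) (hN : 7 ≤ N) (hxy : x + 2 ≤ y)
    (hx : 2 * (N + T) ≤ x) (hov : (N + T) * x + 2 * T ≤ y + 1) (h : Full x y) (r : ℕ)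
    (hr : x ≤ r) : Good r := by
  have key : ∀ j, Full x (y + j) := by
    intro j
    induction j with
    | zero => exact h
    | succ j ih =>
      refine (ih.union (full_comp hO hTN hN (by omega) hx ih) (by omega)).mono le_rfl ?_
      nlinarith
  exact key r r hr (by omega)

/-! ### The checker -/

theorem prime_of_gcd {q B : ℕ} (h2 : 2 ≤ q) (hq : q < (B + 1) ^ 2)
    (hg : Nat.gcd q B.factorial = 1) : q.Prime := by
  by_contra hn
  have h1 := Nat.minFac_sq_le_self (by omega) hn
  have hp := Nat.minFac_prime (show q ≠ 1 by omega)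
  have h3 : q.minFac ≤ B := by
    by_contra h4
    have : (B + 1) ^ 2 ≤ q.minFac ^ 2 := Nat.pow_le_pow_left (by omega) 2
    omega
  have h5 : q.minFac ∣ Nat.gcd q B.factorial :=
    Nat.dvd_gcd (Nat.minFac_dvd q) (Nat.dvd_factorial hp.pos h3)
  rw [hg] at h5
  exact hp.one_lt.ne' (Nat.dvd_one.1 h5)

/-- evaluate a number before it is used -/
def force {α : Type} (n : ℕ) (f : ℕ → α) : α :=
  match n with
  | 0 => f 0
  | m + 1 => f (m + 1)

theorem force_eq {α : Type} (n : ℕ) (f : ℕ → α) : force n f = f n := by cases n <;> rfl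

/-- the conditions on the parameters of an outer hypergraph -/
def okq (P₁ P₂ q h s n T : ℕ) : Bool :=
  Nat.ble 59 q && (bif Nat.blt q 3481 then Nat.beq (Nat.gcd q P₁) 1
    else Nat.blt q 9006001 && Nat.beq (Nat.gcd q P₂) 1) &&
  Nat.beq (Nat.gcd h (q - 1)) 1 && Nat.ble 10 s && Nat.ble (3481 * (T + 2)) (5 * n) &&
  Nat.blt ((T + 1) ^ 2) n &&
  Nat.ble (q * (2 * ((2 * s).factorial / (s.factorial * s.factorial) * (T + 2)))) ((q - 2) * n)

theorem so_of_okq {q h s : ℕ}
    (hk : okq (Nat.factorial 58) (Nat.factorial 3000) q h s (q ^ h) ((q - 1) * s + 8) = true) :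
    SO (q ^ h + 1) ((q - 1) * s + 8) ∧ (q - 1) * s + 8 ≤ q ^ h + 1 ∧ 7 ≤ q ^ h + 1 := by
  simp only [okq, Bool.and_eq_true, Nat.ble_eq, Nat.blt_eq, Nat.beq_eq] at hk
  obtain ⟨⟨⟨⟨⟨⟨h1, h2⟩, h3⟩, h4⟩, h5⟩, h6⟩, h7⟩ := hk
  have hp : q.Prime := by
    by_cases hq : q < 3481
    · rw [show Nat.blt q 3481 = true by simpa using hq, cond_true, Nat.beq_eq] at h2
      exact prime_of_gcd (B := 58) (by omega) (by omega) h2
    · rw [show Nat.blt q 3481 = false by
        rw [← Bool.not_eq_true, Nat.blt_eq]; exact hq, cond_false, Bool.and_eq_true, Nat.blt_eq,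
        Nat.beq_eq] at h2
      exact prime_of_gcd (B := 3000) (by omega) (by omega) h2.2
  have hc : (2 * s).choose s = (2 * s).factorial / (s.factorial * s.factorial) := by
    rw [Nat.choose_eq_factorial_div_factorial (by omega), show 2 * s - s = s by omega]
  refine ⟨so_pairs (t := 4) hp h1 h3 le_rfl (by omega) h5 h6 (by rw [hc]; exact h7), ?_, ?_⟩
  · omega
  · omega

/-- one step: the image of the interval `[a, b]` -/
def step (P₁ P₂ c a b : ℕ) (k : ℕ → ℕ → ℕ × ℕ) : ℕ × ℕ :=
  force (c / 256) fun q => force (c / 32 % 8) fun h => force (c % 32) fun s =>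
  force (q ^ h) fun n => force ((q - 1) * s + 8) fun T =>
  bif okq P₁ P₂ q h s n T && Nat.ble (2 * (n + 1 + T)) a && Nat.ble (a + 2) b then
    force ((n + 1 + T) * a + 2 * T) fun a' => force ((n + 1 + T) * b) fun b' => k a' b'
  else (1, 0)

theorem step_full {c a b : ℕ} {k : ℕ → ℕ → ℕ × ℕ} (h : Full a b)
    (hk : ∀ a b, Full a b → Full (k a b).1 (k a b).2) :
    Full (step (Nat.factorial 58) (Nat.factorial 3000) c a b k).1
      (step (Nat.factorial 58) (Nat.factorial 3000) c a b k).2 := by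
  simp only [step, force_eq]
  generalize c / 256 = q
  generalize c / 32 % 8 = e
  generalize c % 32 = s
  cases hb : (okq (Nat.factorial 58) (Nat.factorial 3000) q e s (q ^ e) ((q - 1) * s + 8) &&
      Nat.ble (2 * (q ^ e + 1 + ((q - 1) * s + 8))) a && Nat.ble (a + 2) b)
  · intro r h1 h2
    simp only [cond_false] at h1 h2
    omega
  · simp only [Bool.and_eq_true, Nat.ble_eq] at hb
    obtain ⟨h1, h2, h3⟩ := so_of_okq hb.1.1
    simp only [cond_true]
    exact hk _ _ (full_comp h1 h2 h3 hb.2 hb.1.2 h)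

/-- a word of at most three steps, coded in base `2 ^ 32` -/
def word (P₁ P₂ w a b : ℕ) : ℕ × ℕ :=
  step P₁ P₂ (w % 4294967296) a b fun a b =>
    bif Nat.blt w 4294967296 then (a, b) else
    step P₁ P₂ (w / 4294967296 % 4294967296) a b fun a b =>
      bif Nat.blt w 18446744073709551616 then (a, b) else
      step P₁ P₂ (w / 18446744073709551616) a b fun a b => (a, b)

theorem word_full {w a b : ℕ} (h : Full a b) :
    Full (word (Nat.factorial 58) (Nat.factorial 3000) w a b).1
      (word (Nat.factorial 58) (Nat.factorial 3000) w a b).2 := by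
  refine step_full h fun a b h => ?_
  cases Nat.blt w 4294967296
  · refine step_full h fun a b h => ?_
    cases Nat.blt w 18446744073709551616
    · exact step_full h fun a b h => h
    · exact h
  · exact h

/-- the union of the images -/
def go (P₁ P₂ a b : ℕ) : List ℕ → ℕ → ℕ
  | [], cur => cur
  | w :: l, cur =>
    match word P₁ P₂ w a b with
    | (c, d) => bif Nat.ble c (cur + 1) then go P₁ P₂ a b l d else 0

theorem go_full {a b lo : ℕ} (hlo : 1 ≤ lo) (h : Full a b) (l : List ℕ) (cur : ℕ)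
    (hc : Full lo cur) : Full lo (go (Nat.factorial 58) (Nat.factorial 3000) a b l cur) := by
  induction l generalizing cur with
  | nil => exact hc
  | cons w l ih =>
    have hw := word_full (w := w) h
    unfold go
    generalize word (Nat.factorial 58) (Nat.factorial 3000) w a b = x at hw
    obtain ⟨c, d⟩ := x
    dsimp only at hw ⊢
    cases hb : Nat.ble c (cur + 1)
    · intro r h1 h2
      simp only [cond_false] at h2
      omega
    · simp only [cond_true]
      exact ih d (hc.union hw (by simpa using hb))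

/-- the check of one level -/
def level (a b lo hi : ℕ) (l : List ℕ) : Bool :=
  force (Nat.factorial 58) fun P₁ => force (Nat.factorial 3000) fun P₂ =>
    Nat.ble hi (go P₁ P₂ a b l lo)

theorem level_full {a b lo hi : ℕ} {l : List ℕ} (h : Full a b)
    (hl : level a b lo hi l = true) : Full (lo + 1) hi := by
  simp only [level, force_eq, Nat.ble_eq] at hl
  exact (go_full (lo := lo + 1) (by omega) h l lo (fun r h1 h2 => by omega)).mono le_rfl hl

/-- the first interval -/
theorem full_base : Full 2488651485700 2488651485703 := by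
  have hg : ∀ T, SO (59 ^ 7 + 1) T → Good (59 ^ 7 + 1 + T) := fun T h =>
    ⟨83, (sd_of_so h).mono (by norm_num), by omega⟩
  have hc : (2 * 15).choose 15 = 155117520 := by
    rw [Nat.choose_eq_factorial_div_factorial (by norm_num)]
    norm_num [Nat.factorial]
  have he : ∀ t, 4 ≤ t → t ≤ 6 → SO (59 ^ 7 + 1) ((59 - 1) * 15 + 2 * t) := fun t h1 h2 =>
    so_pairs (by norm_num) le_rfl (by norm_num) h1 (by omega) (by omega) (by nlinarith)
      (by rw [hc]; omega)
  intro r h1 h2
  have : r = 59 ^ 7 + 1 + ((59 - 1) * 15 + 2 * 5) ∨ r = 59 ^ 7 + 1 + (873 + 2 * 4) ∨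
      r = 59 ^ 7 + 1 + ((59 - 1) * 15 + 2 * 6) ∨ r = 59 ^ 7 + 1 + (873 + 2 * 5) := by omega
  rcases this with rfl | rfl | rfl | rfl
  · exact hg _ (he 5 (by norm_num) (by norm_num))
  · exact hg _ (so_odd (by norm_num) (by norm_num))
  · exact hg _ (he 6 (by norm_num) (by norm_num))
  · exact hg _ (so_odd (by norm_num) (by norm_num))

end Vale.Agent.N045
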