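import Vale.Agent.N045.Geo

/-!
# P045: outer hypergraphs over small fields (labels chosen separately for each component)
-/

namespace Vale.Agent.N045

open Finset P045.LS

section Rich

variable {F : Type} [Field F] [DecidableEq F]

/-- there are labels such that every value occurs `m` times on every split line -/
def Rich {Γ A Λ : Type} [DecidableEq A] {k : Γ → ℕ} (G : Gadget Γ A Λ k)
    (B : Γ → Finset (Line F)) (Ω : Finset (Pt F)) (m : ℕ) : Prop :=
  ∃ S : Pt F → Λ, ∀ c, ∀ x ∈ B c, ∀ Y : Finset A, Y ⊆ G.M c → Y.card = k c →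
    m ≤ (Ω.filter (fun p => On p x ∧ G.X c (S p) = Y)).card

theorem rich_base {Γ A Λ : Type} [Fintype Γ] [Nonempty Γ] [DecidableEq A] {k : Γ → ℕ}
    (G : Gadget Γ A Λ k) (B : Γ → Finset (Line F)) (Ω : Finset (Pt F)) (m β : ℕ)
    (huniq : ∀ p ∈ Ω, ∀ c, ∀ x ∈ B c, ∀ y ∈ B c, On p x → On p y → x = y)
    (hβ : ∀ c, (2 * k c).choose (k c) ≤ β) (hm : 0 < m)
    (hbig : ∀ x : Line F, Fintype.card Γ * (β * m) ≤ (Ω.filter fun p => On p x).card) :
    Rich G B Ω m := by
  classical
  obtain ⟨c0⟩ := (inferInstance : Nonempty Γ)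
  obtain ⟨l0⟩ := G.exists_label c0
  have hβ0 : 0 < β := lt_of_lt_of_le (Nat.choose_pos (by omega)) (hβ c0)
  have hΓ : 0 < Fintype.card Γ := Fintype.card_pos_iff.2 ⟨c0⟩
  obtain ⟨f, hinj, hf⟩ := hall_deg
    (ι := Σ c : Γ, {x // x ∈ B c} × {Y // Y ∈ (G.M c).powersetCard (k c)} × Fin m)
    (fun d => Ω.filter fun p => On p d.2.1.1) (Fintype.card Γ * (β * m)) (by positivity)
    (fun d => hbig _) (by
      intro p
      have h1 : (univ.filter (fun d : (Σ c : Γ, {x // x ∈ B c} ×
          {Y // Y ∈ (G.M c).powersetCard (k c)} × Fin m) =>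
          p ∈ Ω.filter fun p => On p d.2.1.1)).card ≤
          (univ : Finset (Σ c : Γ, {Y // Y ∈ (G.M c).powersetCard (k c)} × Fin m)).card := by
        refine Finset.card_le_card_of_injOn (fun d => ⟨d.1, d.2.2⟩) (fun _ _ => by simp) ?_
        rintro ⟨c, x, y⟩ hx ⟨c', x', y'⟩ hy h
        obtain ⟨rfl, h2⟩ := Sigma.mk.inj h
        have h3 : y = y' := eq_of_heq h2
        have h4 := Finset.mem_filter.1 (Finset.mem_filter.1 hx).2
        have h5 := Finset.mem_filter.1 (Finset.mem_filter.1 hy).2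
        have h6 : x = x' := Subtype.ext (huniq p h4.1 c x.1 x.2 x'.1 x'.2 h4.2 h5.2)
        rw [h3, h6]
      refine h1.trans ?_
      rw [Finset.card_univ, Fintype.card_sigma, ← smul_eq_mul, ← Finset.card_univ,
        ← Finset.sum_const]
      refine Finset.sum_le_sum fun c _ => ?_
      rw [Fintype.card_prod, Fintype.card_fin, Fintype.card_coe, Finset.card_powersetCard,
        G.cardM]
      exact Nat.mul_le_mul_right _ (hβ c))
  have hlab : ∀ d : (Σ c : Γ, {x // x ∈ B c} × {Y // Y ∈ (G.M c).powersetCard (k c)} × Fin m),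
      ∃ l, G.X d.1 l = d.2.2.1.1 := fun d =>
    G.surj d.1 _ (Finset.mem_powersetCard.1 d.2.2.1.2).1 (Finset.mem_powersetCard.1 d.2.2.1.2).2
  choose lab hlab using hlab
  refine ⟨fun p => if h : ∃ d, f d = p then lab h.choose else l0, fun c x hx Y hY hYc => ?_⟩
  have hS : ∀ d, (if h : ∃ d', f d' = f d then lab h.choose else l0) = lab d := by
    intro d
    have h : ∃ d', f d' = f d := ⟨d, rfl⟩
    rw [dif_pos h, hinj h.choose_spec]
  let g : Fin m → Pt F := fun j =>
    f ⟨c, ⟨x, hx⟩, ⟨Y, Finset.mem_powersetCard.2 ⟨hY, hYc⟩⟩, j⟩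
  have hinj2 : Function.Injective g := by
    intro j j' h
    have := hinj h
    simpa using this
  calc m = (univ.image g).card := by
        rw [Finset.card_image_of_injective _ hinj2, Finset.card_univ, Fintype.card_fin]
    _ ≤ _ := by
        refine Finset.card_le_card ?_
        intro p hp
        obtain ⟨j, -, rfl⟩ := Finset.mem_image.1 hp
        have h1 := Finset.mem_filter.1
          (hf ⟨c, ⟨x, hx⟩, ⟨Y, Finset.mem_powersetCard.2 ⟨hY, hYc⟩⟩, j⟩)
        refine Finset.mem_filter.2 ⟨h1.1, h1.2, ?_⟩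
        simp only [g]
        rw [hS]
        exact hlab ⟨c, ⟨x, hx⟩, ⟨Y, Finset.mem_powersetCard.2 ⟨hY, hYc⟩⟩, j⟩

theorem rich_sum {Γ₁ A₁ Λ₁ Γ₂ A₂ Λ₂ : Type} [DecidableEq A₁] [DecidableEq A₂]
    {k₁ : Γ₁ → ℕ} {k₂ : Γ₂ → ℕ} [Nonempty Λ₁] [Nonempty Λ₂]
    (G₁ : Gadget Γ₁ A₁ Λ₁ k₁) (G₂ : Gadget Γ₂ A₂ Λ₂ k₂) (B : Γ₁ ⊕ Γ₂ → Finset (Line F))
    (Ω : Finset (Pt F)) (m : ℕ) (h₁ : Rich G₁ (fun c => B (Sum.inl c)) Ω m)
    (h₂ : Rich G₂ (fun c => B (Sum.inr c)) Ω m) : Rich (G₁.sum G₂) B Ω m := by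
  obtain ⟨S₁, h₁⟩ := h₁
  obtain ⟨S₂, h₂⟩ := h₂
  refine ⟨fun p => (S₁ p, S₂ p), ?_⟩
  rintro (c | c) x hx Y hY hYc
  · obtain ⟨Y', hY', rfl⟩ := Finset.subset_map_iff.1 hY
    refine (h₁ c x hx Y' hY' (by simpa using hYc)).trans (Finset.card_le_card fun p hp => ?_)
    obtain ⟨a1, a2, a3⟩ := Finset.mem_filter.1 hp
    exact Finset.mem_filter.2 ⟨a1, a2, by rw [← a3]; rfl⟩
  · obtain ⟨Y', hY', rfl⟩ := Finset.subset_map_iff.1 hY
    refine (h₂ c x hx Y' hY' (by simpa using hYc)).trans (Finset.card_le_card fun p hp => ?_)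
    obtain ⟨a1, a2, a3⟩ := Finset.mem_filter.1 hp
    exact Finset.mem_filter.2 ⟨a1, a2, by rw [← a3]; rfl⟩

theorem rich_pow {Γ A Λ : Type} [DecidableEq A] {k : Γ → ℕ} [Nonempty Λ] (I : Type)
    [DecidableEq I] (G : Gadget Γ A Λ k) (B : I × Γ → Finset (Line F))
    (Ω : Finset (Pt F)) (m : ℕ) (h : ∀ i, Rich G (fun c => B (i, c)) Ω m) :
    Rich (G.pow I) B Ω m := by
  choose S hS using h
  refine ⟨fun p i => S i p, ?_⟩
  rintro ⟨i, c⟩ x hx Y hY hYc
  obtain ⟨Y', hY', rfl⟩ := Finset.subset_map_iff.1 hY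
  refine (hS i c x hx Y' hY' (by simpa using hYc)).trans (Finset.card_le_card fun p hp => ?_)
  obtain ⟨a1, a2, a3⟩ := Finset.mem_filter.1 hp
  exact Finset.mem_filter.2 ⟨a1, a2, by rw [← a3]; rfl⟩

end Rich

/-- the outer hypergraph of a system of split lines, with the number of points -/
theorem so_of_split {F : Type} [Field F] [Fintype F] [DecidableEq F] {Γ A Λ : Type} [Fintype A]
    [DecidableEq A] {k : Γ → ℕ} {G : Gadget Γ A Λ k} [Fintype Γ] [Nonempty Γ]
    (D : GSplit F G) (hT : (Fintype.card A + 1) ^ 2 < Fintype.card F)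
    (hrig : ∀ L : Finset (Line F), L.card ≤ Fintype.card F + (Fintype.card A + 1) →
      (∀ p ∈ D.Om, ∃ x ∈ L, On p x) → ∀ p, ∃ x ∈ L, On p x) :
    SO (Fintype.card F + 1) (Fintype.card A) := by
  classical
  obtain ⟨c0⟩ := (inferInstance : Nonempty Γ)
  obtain ⟨l0⟩ := G.exists_label c0
  refine ⟨Option F, A, {p // p ∈ D.Om}, GSplit.Blk F A, inferInstance, inferInstance,
    inferInstance, inferInstance, inferInstance, inferInstance, inferInstance, inferInstance,
    D.fn, ?_, ?_, rfl, (card_sub_pt _).trans (Nat.pow_le_pow_left (Nat.le_succ _) 2),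
    D.intersecting, ?_⟩
  · have hx : D.typ (D.xl c0 0) = some c0 := D.xl_typ c0 0
    have h2 := D.rich _ c0 hx (G.X c0 l0) (G.sub c0 l0) (G.cardX c0 l0)
    obtain ⟨p, hp⟩ := Finset.card_pos.1 (lt_of_lt_of_le (Nat.succ_pos _) h2)
    exact ⟨⟨p, (Finset.mem_filter.1 hp).1⟩⟩
  · rw [Fintype.card_option]
  · intro a u hau hmin C hC
    set C' := C.filter fun z => D.Genuine z with hC'
    have hC'cov : ∀ w, ∃ i, (i, D.fn i w) ∈ C' := by
      intro w
      obtain ⟨i, hi⟩ := hC w
      exact ⟨i, Finset.mem_filter.2 ⟨hi, w, rfl⟩⟩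
    refine le_trans ?_ (Finset.sum_le_sum_of_subset (Finset.filter_subset _ C) :
      ∑ z ∈ C', Sum.elim a (fun _ => u) z.1 ≤ _)
    by_cases hcard : C'.card ≤ Fintype.card F + (Fintype.card A + 1)
    · exact D.weight_le_of_card_le hT (G.card_eq l0).le hrig C' hC'cov
        (fun z hz => (Finset.mem_filter.1 hz).2) a u hau hcard
    · obtain ⟨d0, -, hd0⟩ := Finset.exists_min_image (univ : Finset (Option F)) a
        ⟨none, Finset.mem_univ _⟩
      refine (hmin d0).trans ?_
      have h1 : ∀ z ∈ C', a d0 ≤ Sum.elim a (fun _ => u) z.1 := by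
        rintro ⟨d | b, bl⟩ _
        · exact hd0 d (Finset.mem_univ d)
        · exact hau d0
      refine le_trans ?_ (Finset.card_nsmul_le_sum C' _ (a d0) h1)
      rw [smul_eq_mul]
      exact Nat.mul_le_mul_right _ (by omega)

/-- a gadget on `Γ ⊕ Bool`, the classes `Γ` being the linear classes -/
theorem so_field {k F : Type} [Field k] [Fintype k] [DecidableEq k] [Field F] [Fintype F]
    [DecidableEq F] [Algebra k F] {Γ A Λ : Type} [Fintype Γ] [Fintype A] [DecidableEq A]
    {κ : Γ ⊕ Bool → ℕ} (G : Gadget (Γ ⊕ Bool) A Λ κ) (hΓ : Fintype.card Γ = Fintype.card k - 1)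
    (hκ : ∀ c, 4 ≤ κ c) (hκ1 : ∀ c, Fintype.card A + 2 ≤ κ (Sum.inl c) * Fintype.card k)
    (hq : 59 ≤ Fintype.card k) (hco : Nat.Coprime (Module.finrank k F) (Fintype.card k - 1))
    (hn1 : 3481 * (Fintype.card A + 2) ≤ 5 * Fintype.card F)
    (hn2 : (Fintype.card A + 1) ^ 2 < Fintype.card F)
    (hrich : ∀ B : Γ ⊕ Bool → Finset (Line F),
      (∀ p ∈ Om k F, ∀ c, ∀ x ∈ B c, ∀ y ∈ B c, On p x → On p y → x = y) →
      Rich G B (Om k F) (Fintype.card A + 2)) :
    SO (Fintype.card F + 1) (Fintype.card A) := by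
  classical
  obtain ⟨e⟩ : Nonempty (Γ ≃ {l : k // l ≠ 0}) :=
    Fintype.card_eq.1 (by rw [card_ne_zero, hΓ])
  let ι : Γ ⊕ Bool → {l : k // l ≠ 0} ⊕ Bool := Sum.map e id
  have hι : Function.Injective ι := Sum.map_injective.2 ⟨e.injective, Function.injective_id⟩
  let B : Γ ⊕ Bool → Finset (Line F) := fun c => CL k F (ι c)
  have huniq : ∀ p ∈ Om k F, ∀ c, ∀ x ∈ B c, ∀ y ∈ B c, On p x → On p y → x = y :=
    fun p hp c x hx y hy => CL_uniq p hp _ x hx y hy
  obtain ⟨typ, htyp⟩ := exists_typ B (fun c c' h => CL_disj hco _ _ (fun h' => h (hι h')))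
  obtain ⟨S, hS⟩ := hrich B huniq
  have hcov : ∀ c p, ∃ x ∈ B c, On p x := fun c p => CL_cov _ p
  choose xl hxl1 hxl2 using hcov
  have hne : Nonempty (Γ ⊕ Bool) := ⟨Sum.inr true⟩
  let D : GSplit F G :=
    { Om := Om k F
      typ := typ
      xl := xl
      S := S
      hk := hκ
      xl_on := hxl2
      xl_typ := fun c p => (htyp _ c).2 (hxl1 c p)
      uniq := fun c p hp x hpx hx => huniq p hp c x ((htyp x c).1 hx) _ (hxl1 c p) hpx
        (hxl2 c p)
      rich := fun x c hx Y hY hYc => hS c x ((htyp x c).1 hx) Y hY hYc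
      dir := by
        intro d
        rcases CL_dir hco d with ⟨l, hl⟩ | ⟨b, hb⟩
        · obtain ⟨c, rfl⟩ := e.surjective l
          refine lt_of_lt_of_le ?_ (dir_sum B typ htyp (gext κ) (Sum.inl c) d)
          refine lt_of_lt_of_le (Nat.lt_succ_self _) ((hκ1 c).trans ?_)
          exact Nat.mul_le_mul_left _ hl
        · refine lt_of_lt_of_le ?_ (dir_sum B typ htyp (gext κ) (Sum.inr b) d)
          have h4 : 4 * Fintype.card F ≤ _ := Nat.mul_le_mul (hκ (Sum.inr b)) hb
          refine lt_of_lt_of_le ?_ h4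
          omega }
  exact so_of_split D hn2 fun L hL hc => rigid_gen hq hco _ hn1 L hL hc

/-- the number of points of `Ω` on a line, in the form needed for the labels -/
theorem big_line {k F : Type} [Field k] [Fintype k] [DecidableEq k] [Field F] [Fintype F]
    [DecidableEq F] [Algebra k F]
    (hco : Nat.Coprime (Module.finrank k F) (Fintype.card k - 1)) {K : ℕ}
    (hK : Fintype.card k * K ≤ (Fintype.card k - 2) * Fintype.card F) (x : Line F) :
    K ≤ ((Om k F).filter fun p => On p x).card :=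
  Nat.le_of_mul_le_mul_left (hK.trans (card_Om_line hco x)) Fintype.card_pos

theorem choose_mono {s t : ℕ} (h : t ≤ s) : (2 * t).choose t ≤ (2 * s).choose s :=
  ((Nat.choose_le_middle t (2 * t)).trans
    (by rw [Nat.mul_div_cancel_left _ (by norm_num : 0 < 2)])).trans
    ((Nat.choose_le_choose t (by omega : 2 * t ≤ 2 * s)).trans
      ((Nat.choose_le_middle t (2 * s)).trans
        (by rw [Nat.mul_div_cancel_left _ (by norm_num : 0 < 2)])))

/-- a prime field and an extension of given degree -/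
theorem exists_field {q h : ℕ} (hp : q.Prime) (hh : h ≠ 0)
    (P : ℕ → Prop) (hP : ∀ (k F : Type) [Field k] [Fintype k] [DecidableEq k] [Field F]
      [Fintype F] [DecidableEq F] [Algebra k F], Fintype.card k = q →
      Module.finrank k F = h → P (Fintype.card F)) : P (q ^ h) := by
  classical
  have : Fact q.Prime := ⟨hp⟩
  have : Fintype (GaloisField q h) := Fintype.ofFinite _
  have hcard : Fintype.card (GaloisField q h) = q ^ h := by
    rw [← Nat.card_eq_fintype_card]
    exact GaloisField.card q h hh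
  rw [← hcard]
  exact hP (ZMod q) (GaloisField q h) (ZMod.card q) (GaloisField.finrank q hh)

/-- outer hypergraphs from pairs of classes -/
theorem so_pairs {q h s t : ℕ} (hp : q.Prime) (hq : 59 ≤ q) (hco : Nat.Coprime h (q - 1))
    (ht : 4 ≤ t) (hts : 2 * t + 2 ≤ s)
    (hn1 : 3481 * ((q - 1) * s + 2 * t + 2) ≤ 5 * q ^ h)
    (hn2 : ((q - 1) * s + 2 * t + 1) ^ 2 < q ^ h)
    (hn3 : q * (2 * ((2 * s).choose s * ((q - 1) * s + 2 * t + 2))) ≤ (q - 2) * q ^ h) :
    SO (q ^ h + 1) ((q - 1) * s + 2 * t) := by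
  classical
  have hh : h ≠ 0 := by
    rintro rfl
    rw [Nat.coprime_zero_left] at hco
    omega
  revert hn1 hn2 hn3
  refine exists_field hp hh (fun n => 3481 * ((q - 1) * s + 2 * t + 2) ≤ 5 * n →
    ((q - 1) * s + 2 * t + 1) ^ 2 < n →
    q * (2 * ((2 * s).choose s * ((q - 1) * s + 2 * t + 2))) ≤ (q - 2) * n →
    SO (n + 1) ((q - 1) * s + 2 * t)) ?_
  intro k F _ _ _ _ _ _ _ hk hF hn1 hn2 hn3
  obtain ⟨j, hj⟩ : Odd q := hp.odd_of_ne_two (by omega)
  have hne : Nonempty {L : Finset (Fin (2 * s)) // L.card = s} :=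
    (pairGadget s).exists_label true
  have hne2 : Nonempty {L : Finset (Fin (2 * t)) // L.card = t} :=
    (pairGadget t).exists_label true
  have hA : Fintype.card ((Fin j × Fin (2 * s)) ⊕ Fin (2 * t)) = (q - 1) * s + 2 * t := by
    rw [Fintype.card_sum, Fintype.card_prod, Fintype.card_fin, Fintype.card_fin,
      Fintype.card_fin, show q - 1 = 2 * j by omega]
    ring
  have hco' : Nat.Coprime (Module.finrank k F) (Fintype.card k - 1) := by rw [hk, hF]; exact hco
  have key := so_field (k := k) (F := F) (((pairGadget s).pow (Fin j)).sum (pairGadget t))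
    (by rw [Fintype.card_prod, Fintype.card_fin, Fintype.card_bool, hk]; omega)
    (by
      rintro (c | c)
      · show 4 ≤ s
        omega
      · exact ht)
    (by
      intro c
      rw [hA, hk]
      show _ ≤ s * q
      obtain ⟨p, rfl⟩ : ∃ p, q = p + 1 := ⟨q - 1, by omega⟩
      rw [Nat.add_sub_cancel]
      nlinarith)
    (by rw [hk]; exact hq) hco' (by rw [hA]; exact hn1) (by rw [hA]; exact hn2) (by
      intro B huniq
      rw [hA]
      have hb := big_line (k := k) (F := F) hco' (by rw [hk]; exact hn3)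
      refine rich_sum _ _ _ _ _ (rich_pow _ _ _ _ _ fun i => ?_) ?_
      · exact rich_base _ _ _ _ ((2 * s).choose s)
          (fun p hp c => huniq p hp (Sum.inl (i, c))) (fun _ => le_rfl) (by omega)
          (by rw [Fintype.card_bool]; exact hb)
      · exact rich_base _ _ _ _ ((2 * s).choose s)
          (fun p hp c => huniq p hp (Sum.inr c)) (fun _ => choose_mono (by omega)) (by omega)
          (by rw [Fintype.card_bool]; exact hb))
  rw [hA] at key
  exact key

/-- outer hypergraphs with an odd number of colours over the field with `59 ^ 7` elements -/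
theorem so_odd {t : ℕ} (ht : 4 ≤ t) (ht5 : t ≤ 5) : SO (59 ^ 7 + 1) (873 + 2 * t) := by
  classical
  refine exists_field (q := 59) (h := 7) (by norm_num) (by norm_num)
    (fun n => n = 59 ^ 7 → SO (n + 1) (873 + 2 * t)) ?_ rfl
  intro k F _ _ _ _ _ _ _ hk hF hn
  have hne : Nonempty {L : Finset (Fin (2 * 15)) // L.card = 15} :=
    (pairGadget 15).exists_label true
  have hne2 : Nonempty {L : Finset (Fin (2 * t)) // L.card = t} :=
    (pairGadget t).exists_label true
  have hne3 : Nonempty {P : Fin 3 → Finset (Fin 15) // ∀ i j, (P i).card = (P j).card} :=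
    (triGadget 15).exists_label 0
  have hne4 : Nonempty {P : Fin 3 → Finset (Fin 16) // ∀ i j, (P i).card = (P j).card} :=
    (triGadget 16).exists_label 0
  have hA : Fintype.card (((Fin 26 × Fin (2 * 15)) ⊕ ((Fin 3 × Fin 15) ⊕ (Fin 3 × Fin 16))) ⊕
      Fin (2 * t)) = 873 + 2 * t := by
    simp only [Fintype.card_sum, Fintype.card_prod, Fintype.card_fin]
  have hco' : Nat.Coprime (Module.finrank k F) (Fintype.card k - 1) := by
    rw [hk, hF]; norm_num
  have hc : (2 * 16).choose 16 = 601080390 := by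
    rw [Nat.choose_eq_factorial_div_factorial (by norm_num)]
    norm_num [Nat.factorial]
  have key := so_field (k := k) (F := F)
    ((((pairGadget 15).pow (Fin 26)).sum ((triGadget 15).sum (triGadget 16))).sum (pairGadget t))
    (by simp only [Fintype.card_sum, Fintype.card_prod, Fintype.card_fin, Fintype.card_bool, hk])
    (by
      rintro ((c | c | c) | c)
      · show 4 ≤ 15
        omega
      · show 4 ≤ 15
        omega
      · show 4 ≤ 16
        omega
      · exact ht)
    (by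
      rw [hA, hk]
      rintro (c | c | c)
      · show _ ≤ 15 * 59
        omega
      · show _ ≤ 15 * 59
        omega
      · show _ ≤ 16 * 59
        omega)
    (by rw [hk]) hco' (by rw [hA, hn]; omega) (by rw [hA, hn]; nlinarith) (by
      intro B huniq
      rw [hA]
      have hb := big_line (k := k) (F := F) hco' (K := 3 * (601080390 * (873 + 2 * t + 2)))
        (by rw [hk, hn]; omega)
      have hb2 : ∀ x : Line F, 2 * (601080390 * (873 + 2 * t + 2)) ≤ _ :=
        fun x => le_trans (by omega) (hb x)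
      refine rich_sum _ _ _ _ _ (rich_sum _ _ _ _ _ (rich_pow _ _ _ _ _ fun i => ?_)
        (rich_sum _ _ _ _ _ ?_ ?_)) ?_
      · exact rich_base _ _ _ _ 601080390
          (fun p hp c => huniq p hp (Sum.inl (Sum.inl (i, c))))
          (fun _ => hc ▸ choose_mono (by norm_num)) (by omega)
          (by rw [Fintype.card_bool]; exact hb2)
      · exact rich_base _ _ _ _ 601080390
          (fun p hp c => huniq p hp (Sum.inl (Sum.inr (Sum.inl c))))
          (fun _ => hc ▸ choose_mono (by norm_num)) (by omega)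
          (by rw [Fintype.card_fin]; exact hb)
      · exact rich_base _ _ _ _ 601080390
          (fun p hp c => huniq p hp (Sum.inl (Sum.inr (Sum.inr c))))
          (fun _ => hc.le) (by omega)
          (by rw [Fintype.card_fin]; exact hb)
      · exact rich_base _ _ _ _ 601080390
          (fun p hp c => huniq p hp (Sum.inr c))
          (fun _ => hc ▸ choose_mono (by omega)) (by omega)
          (by rw [Fintype.card_bool]; exact hb2))
  rw [hA] at key
  exact key

end Vale.Agent.N045
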